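import Mathlib

/-!
A Chernoff-type sampling lemma for finitely many bounded densities on a finite set, with an explicit
pessimistic estimator.
-/

open Finset

namespace Vale.Agent.P249

/-- The chord bound for the exponential on the unit interval. -/
theorem exp_mul_le_chord (c y : ℝ) (h0 : 0 ≤ y) (h1 : y ≤ 1) :
    Real.exp (c * y) ≤ 1 + (Real.exp c - 1) * y := by
  have h := convexOn_exp.2 (Set.mem_univ (0 : ℝ)) (Set.mem_univ c) (by linarith : 0 ≤ 1 - y) h0
    (by ring)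
  simp only [smul_eq_mul, mul_zero, zero_add, Real.exp_zero, mul_one] at h
  have he : y * c = c * y := by ring
  rw [he] at h
  nlinarith

theorem exp_sub_one_le {l : ℝ} (h0 : 0 ≤ l) (h1 : l ≤ 1) : Real.exp l - 1 ≤ l + l ^ 2 := by
  have h := Real.abs_exp_sub_one_sub_id_le (x := l) (by rw [abs_of_nonneg h0]; exact h1)
  have := (abs_le.mp h).2
  linarith

theorem one_sub_exp_neg_ge {l : ℝ} (h0 : 0 ≤ l) (h1 : l ≤ 1) : l - l ^ 2 ≤ 1 - Real.exp (-l) := by
  have h := Real.abs_exp_sub_one_sub_id_le (x := -l) (by rw [abs_neg, abs_of_nonneg h0]; exact h1)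
  have := (abs_le.mp h).2
  have e : (-l) ^ 2 = l ^ 2 := by ring
  rw [e] at this
  linarith

/-- The expectation of a product function on a finite product space. -/
theorem sum_prod_eq_pow {Ω : Type*} [Fintype Ω] (d : ℕ) (φ : Ω → ℝ) :
    ∑ τ : Fin d → Ω, ∏ i, φ (τ i) = (∑ t, φ t) ^ d := by
  have h := Finset.prod_univ_sum (fun _ : Fin d => (Finset.univ : Finset Ω)) (fun _ t => φ t)
  rw [Fintype.piFinset_univ] at h
  rw [← h]
  simp

section moment

variable {Ω : Type*} [Fintype Ω] (ν : Ω → ℝ) (Y : Ω → ℝ)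

/-- The bound for the exponential moment with a parameter of either sign. -/
theorem moment_le (hν0 : ∀ t, 0 ≤ ν t) (hν1 : ∑ t, ν t = 1) (hY0 : ∀ t, 0 ≤ Y t) (hY1 : ∀ t, Y t ≤ 1)
    {μ : ℝ} (hμ : ∑ t, ν t * Y t = μ) (c : ℝ) :
    ∑ t, ν t * Real.exp (c * Y t) ≤ Real.exp ((Real.exp c - 1) * μ) := by
  have h1 : ∑ t, ν t * Real.exp (c * Y t) ≤ ∑ t, ν t * (1 + (Real.exp c - 1) * Y t) :=
    Finset.sum_le_sum fun t _ =>
      mul_le_mul_of_nonneg_left (exp_mul_le_chord c (Y t) (hY0 t) (hY1 t)) (hν0 t)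
  have h2 : ∑ t, ν t * (1 + (Real.exp c - 1) * Y t) = 1 + (Real.exp c - 1) * μ := by
    have h : ∑ t, ν t * (1 + (Real.exp c - 1) * Y t) =
        ∑ t, ν t + (Real.exp c - 1) * ∑ t, ν t * Y t := by
      rw [Finset.mul_sum, ← Finset.sum_add_distrib]
      apply Finset.sum_congr rfl
      intro t _
      ring
    rw [h, hν1, hμ]
  rw [h2] at h1
  have h3 := Real.add_one_le_exp ((Real.exp c - 1) * μ)
  linarith

end moment

/-- **The sampling lemma.** -/
theorem exists_sample {Ω J : Type*} [Fintype Ω] [Fintype J] (ν : Ω → ℝ) (hν0 : ∀ t, 0 ≤ ν t)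
    (hν1 : ∑ t, ν t = 1) (g : J → Ω → ℝ) (hg0 : ∀ j t, 0 ≤ g j t) (hg1 : ∀ j, ∑ t, g j t = 1)
    {M : ℝ} (hM : 0 < M) (hgM : ∀ j t, g j t ≤ M * ν t) {ε : ℝ} (hε0 : 0 < ε) (hε1 : ε ≤ 1) {d : ℕ}
    (hd : 0 < d) (hlarge : 2 * (Fintype.card J : ℝ) * Real.exp (-((d : ℝ) * ε ^ 2 / (4 * M))) < 1) :
    ∃ τ : Fin d → Ω, (∀ i, 0 < ν (τ i)) ∧ ∀ j,
      1 - ε ≤ (1 / (d : ℝ)) * ∑ i, g j (τ i) / ν (τ i) ∧
      (1 / (d : ℝ)) * ∑ i, g j (τ i) / ν (τ i) ≤ 1 + ε := by
  classical
  set Y : J → Ω → ℝ := fun j t => g j t / (M * ν t) with hY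
  have hY0 : ∀ j t, 0 ≤ Y j t := fun j t =>
    div_nonneg (hg0 j t) (mul_nonneg hM.le (hν0 t))
  have hY1 : ∀ j t, Y j t ≤ 1 := fun j t => div_le_one_of_le₀ (hgM j t) (mul_nonneg hM.le (hν0 t))
  have hzero : ∀ j t, ν t = 0 → g j t = 0 := by
    intro j t h
    have h1 := hgM j t
    rw [h, mul_zero] at h1
    exact le_antisymm h1 (hg0 j t)
  have hμ : ∀ j, ∑ t, ν t * Y j t = 1 / M := by
    intro j
    have : ∀ t, ν t * Y j t = g j t / M := by
      intro t
      by_cases h : ν t = 0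
      · simp [h, hzero j t h]
      · simp only [hY]
        field_simp
    simp_rw [this]
    rw [← Finset.sum_div, hg1 j]
  set l : ℝ := ε / 2 with hl
  have hl0 : 0 ≤ l := by rw [hl]; positivity
  have hl1 : l ≤ 1 := by rw [hl]; linarith
  set dR : ℝ := (d : ℝ) with hdR
  have hdpos : 0 < dR := by rw [hdR]; exact_mod_cast hd
  -- the pessimistic estimator
  let Φ : (Fin d → Ω) → ℝ := fun τ => ∑ j,
    (Real.exp (l * (∑ i, Y j (τ i)) - l * (1 + ε) * (dR / M)) +
      Real.exp (-l * (∑ i, Y j (τ i)) + l * (1 - ε) * (dR / M)))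
  let P : (Fin d → Ω) → ℝ := fun τ => ∏ i, ν (τ i)
  have hP0 : ∀ τ, 0 ≤ P τ := fun τ => Finset.prod_nonneg fun i _ => hν0 _
  have hP1 : ∑ τ, P τ = 1 := by
    simp only [P]
    rw [sum_prod_eq_pow, hν1, one_pow]
  -- expectations of the two exponential terms
  have hE1 : ∀ j, ∑ τ, P τ * Real.exp (l * (∑ i, Y j (τ i)) - l * (1 + ε) * (dR / M)) ≤
      Real.exp (-(dR * ε ^ 2 / (4 * M))) := by
    intro j
    have he : ∀ τ : Fin d → Ω, P τ * Real.exp (l * (∑ i, Y j (τ i)) - l * (1 + ε) * (dR / M)) =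
        Real.exp (- (l * (1 + ε) * (dR / M))) * ∏ i, (ν (τ i) * Real.exp (l * Y j (τ i))) := by
      intro τ
      rw [sub_eq_add_neg, Real.exp_add, Finset.mul_sum, Real.exp_sum, Finset.prod_mul_distrib]
      simp only [P]
      ring
    have hs : ∑ τ : Fin d → Ω, ∏ i, (ν (τ i) * Real.exp (l * Y j (τ i))) =
        (∑ t, ν t * Real.exp (l * Y j t)) ^ d :=
      sum_prod_eq_pow d (fun t => ν t * Real.exp (l * Y j t))
    simp_rw [he]
    rw [← Finset.mul_sum, hs]
    have hm := moment_le ν (Y j) hν0 hν1 (hY0 j) (hY1 j) (hμ j) l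
    have hm0 : 0 ≤ ∑ t, ν t * Real.exp (l * Y j t) :=
      Finset.sum_nonneg fun t _ => mul_nonneg (hν0 t) (Real.exp_pos _).le
    have hpow := pow_le_pow_left₀ hm0 hm d
    rw [← Real.exp_nat_mul] at hpow
    calc Real.exp (-(l * (1 + ε) * (dR / M))) * (∑ t, ν t * Real.exp (l * Y j t)) ^ d
        ≤ Real.exp (-(l * (1 + ε) * (dR / M))) * Real.exp ((d : ℝ) * ((Real.exp l - 1) * (1 / M))) :=
          mul_le_mul_of_nonneg_left hpow (Real.exp_pos _).le
      _ = Real.exp (-(l * (1 + ε) * (dR / M)) + dR * ((Real.exp l - 1) * (1 / M))) := by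
          rw [Real.exp_add]
      _ ≤ Real.exp (-(dR * ε ^ 2 / (4 * M))) := by
          apply Real.exp_le_exp.mpr
          have h2 := exp_sub_one_le hl0 hl1
          have h3 : dR * ((Real.exp l - 1) * (1 / M)) ≤ dR * ((l + l ^ 2) * (1 / M)) := by
            apply mul_le_mul_of_nonneg_left _ hdpos.le
            exact mul_le_mul_of_nonneg_right h2 (by positivity)
          have h4 : -(l * (1 + ε) * (dR / M)) + dR * ((l + l ^ 2) * (1 / M)) =
              -(dR * ε ^ 2 / (4 * M)) := by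
            rw [hl]; field_simp; ring
          linarith
  have hE2 : ∀ j, ∑ τ, P τ * Real.exp (-l * (∑ i, Y j (τ i)) + l * (1 - ε) * (dR / M)) ≤
      Real.exp (-(dR * ε ^ 2 / (4 * M))) := by
    intro j
    have he : ∀ τ : Fin d → Ω, P τ * Real.exp (-l * (∑ i, Y j (τ i)) + l * (1 - ε) * (dR / M)) =
        Real.exp (l * (1 - ε) * (dR / M)) * ∏ i, (ν (τ i) * Real.exp (-l * Y j (τ i))) := by
      intro τ
      rw [Real.exp_add, Finset.mul_sum, Real.exp_sum, Finset.prod_mul_distrib]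
      simp only [P]
      ring
    have hs : ∑ τ : Fin d → Ω, ∏ i, (ν (τ i) * Real.exp (-l * Y j (τ i))) =
        (∑ t, ν t * Real.exp (-l * Y j t)) ^ d :=
      sum_prod_eq_pow d (fun t => ν t * Real.exp (-l * Y j t))
    simp_rw [he]
    rw [← Finset.mul_sum, hs]
    have hm := moment_le ν (Y j) hν0 hν1 (hY0 j) (hY1 j) (hμ j) (-l)
    have hm0 : 0 ≤ ∑ t, ν t * Real.exp (-l * Y j t) :=
      Finset.sum_nonneg fun t _ => mul_nonneg (hν0 t) (Real.exp_pos _).le
    have hpow := pow_le_pow_left₀ hm0 hm d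
    rw [← Real.exp_nat_mul] at hpow
    calc Real.exp (l * (1 - ε) * (dR / M)) * (∑ t, ν t * Real.exp (-l * Y j t)) ^ d
        ≤ Real.exp (l * (1 - ε) * (dR / M)) * Real.exp ((d : ℝ) * ((Real.exp (-l) - 1) * (1 / M))) :=
          mul_le_mul_of_nonneg_left hpow (Real.exp_pos _).le
      _ = Real.exp (l * (1 - ε) * (dR / M) + dR * ((Real.exp (-l) - 1) * (1 / M))) := by
          rw [Real.exp_add]
      _ ≤ Real.exp (-(dR * ε ^ 2 / (4 * M))) := by
          apply Real.exp_le_exp.mpr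
          have h2 := one_sub_exp_neg_ge hl0 hl1
          have h3 : dR * ((Real.exp (-l) - 1) * (1 / M)) ≤ dR * ((l ^ 2 - l) * (1 / M)) := by
            apply mul_le_mul_of_nonneg_left _ hdpos.le
            apply mul_le_mul_of_nonneg_right _ (by positivity)
            linarith
          have h4 : l * (1 - ε) * (dR / M) + dR * ((l ^ 2 - l) * (1 / M)) =
              -(dR * ε ^ 2 / (4 * M)) := by
            rw [hl]; field_simp; ring
          linarith
  -- the expectation of the estimator is below one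
  have hEΦ : ∑ τ, P τ * Φ τ < 1 := by
    have h1 : ∑ τ, P τ * Φ τ = ∑ j, (∑ τ, P τ * Real.exp (l * (∑ i, Y j (τ i)) - l * (1 + ε) * (dR / M)) +
        ∑ τ, P τ * Real.exp (-l * (∑ i, Y j (τ i)) + l * (1 - ε) * (dR / M))) := by
      simp only [Φ, Finset.mul_sum]
      rw [Finset.sum_comm]
      apply Finset.sum_congr rfl
      intro j _
      rw [← Finset.sum_add_distrib]
      apply Finset.sum_congr rfl
      intro τ _
      ring
    rw [h1]
    calc _ ≤ ∑ _j : J, (Real.exp (-(dR * ε ^ 2 / (4 * M))) + Real.exp (-(dR * ε ^ 2 / (4 * M)))) :=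
          Finset.sum_le_sum fun j _ => add_le_add (hE1 j) (hE2 j)
      _ = 2 * (Fintype.card J : ℝ) * Real.exp (-((d : ℝ) * ε ^ 2 / (4 * M))) := by
          rw [Finset.sum_const, Finset.card_univ, nsmul_eq_mul]
          ring
      _ < 1 := hlarge
  -- so there is a good point
  have hex : ∃ τ, 0 < P τ ∧ Φ τ < 1 := by
    by_contra hcon
    push Not at hcon
    have hle : ∑ τ, P τ ≤ ∑ τ, P τ * Φ τ := by
      apply Finset.sum_le_sum
      intro τ _
      rcases (hP0 τ).eq_or_lt with h | h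
      · simp [← h]
      · have := hcon τ h
        nlinarith
    rw [hP1] at hle
    linarith
  obtain ⟨τ, hPτ, hΦτ⟩ := hex
  refine ⟨τ, ?_, ?_⟩
  · intro i
    rcases (hν0 (τ i)).eq_or_lt with h | h
    · exfalso
      have : P τ = 0 := Finset.prod_eq_zero (Finset.mem_univ i) h.symm
      linarith
    · exact h
  intro j
  have hνpos : ∀ i, 0 < ν (τ i) := by
    intro i
    rcases (hν0 (τ i)).eq_or_lt with h | h
    · exfalso
      have : P τ = 0 := Finset.prod_eq_zero (Finset.mem_univ i) h.symm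
      linarith
    · exact h
  have hterm : Real.exp (l * (∑ i, Y j (τ i)) - l * (1 + ε) * (dR / M)) +
      Real.exp (-l * (∑ i, Y j (τ i)) + l * (1 - ε) * (dR / M)) ≤ Φ τ := by
    have hnn : ∀ j' ∈ (Finset.univ : Finset J), 0 ≤ Real.exp (l * (∑ i, Y j' (τ i)) - l * (1 + ε) * (dR / M)) +
      Real.exp (-l * (∑ i, Y j' (τ i)) + l * (1 - ε) * (dR / M)) := fun j' _ => by positivity
    exact Finset.single_le_sum hnn (Finset.mem_univ j)
  have hlpos : 0 < l := by rw [hl]; positivity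
  have hup : l * (∑ i, Y j (τ i)) - l * (1 + ε) * (dR / M) < 0 := by
    have : Real.exp (l * (∑ i, Y j (τ i)) - l * (1 + ε) * (dR / M)) < 1 := by
      have := Real.exp_pos (-l * (∑ i, Y j (τ i)) + l * (1 - ε) * (dR / M))
      linarith
    exact Real.exp_lt_one_iff.mp this
  have hlo : -l * (∑ i, Y j (τ i)) + l * (1 - ε) * (dR / M) < 0 := by
    have : Real.exp (-l * (∑ i, Y j (τ i)) + l * (1 - ε) * (dR / M)) < 1 := by
      have := Real.exp_pos (l * (∑ i, Y j (τ i)) - l * (1 + ε) * (dR / M))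
      linarith
    exact Real.exp_lt_one_iff.mp this
  have hSY : (1 / dR) * ∑ i, g j (τ i) / ν (τ i) = (M / dR) * ∑ i, Y j (τ i) := by
    have : ∀ i, g j (τ i) / ν (τ i) = M * Y j (τ i) := by
      intro i
      simp only [hY]
      have := hνpos i
      field_simp
    simp_rw [this]
    rw [← Finset.mul_sum]
    field_simp
  rw [hSY]
  have hup' : ∑ i, Y j (τ i) < (1 + ε) * (dR / M) := by
    by_contra hn
    push Not at hn
    have := mul_le_mul_of_nonneg_left hn hlpos.le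
    nlinarith
  have hlo' : (1 - ε) * (dR / M) < ∑ i, Y j (τ i) := by
    by_contra hn
    push Not at hn
    have := mul_le_mul_of_nonneg_left hn hlpos.le
    nlinarith
  have hc : 0 < M / dR := by positivity
  have e1 : M / dR * ((1 + ε) * (dR / M)) = 1 + ε := by field_simp
  have e2 : M / dR * ((1 - ε) * (dR / M)) = 1 - ε := by field_simp
  constructor
  · calc 1 - ε = M / dR * ((1 - ε) * (dR / M)) := e2.symm
      _ ≤ M / dR * ∑ i, Y j (τ i) := mul_le_mul_of_nonneg_left hlo'.le hc.le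
  · calc M / dR * ∑ i, Y j (τ i) ≤ M / dR * ((1 + ε) * (dR / M)) :=
          mul_le_mul_of_nonneg_left hup'.le hc.le
      _ = 1 + ε := e1

end Vale.Agent.P249
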