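import Mathlib

/-!
Two-hop spanners of finite metric spaces with few edges (the hierarchy of Thorup and Zwick, with
deterministic hitting sets).
-/

open Finset

namespace Vale.Agent.P249

variable {X : Type*} [Fintype X] [DecidableEq X]

/-- The `k` elements of `A` with the smallest values of `f`. -/
theorem exists_closest (f : X → ℝ) (A : Finset X) (k : ℕ) (hk : k ≤ A.card) :
    ∃ N ⊆ A, N.card = k ∧ ∀ u ∈ N, ∀ v ∈ A \ N, f u ≤ f v := by
  induction k with
  | zero => exact ⟨∅, empty_subset _, rfl, by simp⟩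
  | succ k ih =>
    obtain ⟨N, hNA, hNc, hN⟩ := ih (by omega)
    have hne : (A \ N).Nonempty := by
      rw [← card_pos, card_sdiff_of_subset hNA]
      omega
    obtain ⟨v0, hv0, hmin⟩ := exists_min_image (A \ N) f hne
    have hv0' : v0 ∉ N := (mem_sdiff.mp hv0).2
    refine ⟨insert v0 N, ?_, ?_, ?_⟩
    · exact insert_subset (mem_sdiff.mp hv0).1 hNA
    · rw [card_insert_of_notMem hv0', hNc]
    · intro u hu v hv
      have hvA := (mem_sdiff.mp hv).1
      have hvN : v ∉ insert v0 N := (mem_sdiff.mp hv).2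
      have hvN' : v ∉ N := fun h => hvN (mem_insert_of_mem h)
      rcases mem_insert.mp hu with rfl | hu'
      · exact hmin v (mem_sdiff.mpr ⟨hvA, hvN'⟩)
      · exact hN u hu' v (mem_sdiff.mpr ⟨hvA, hvN'⟩)

/-- One greedy step of the hitting set construction. -/
theorem exists_hit_step (A : Finset X) (S : X → Finset X) (hS : ∀ x, S x ⊆ A) {ℓ : ℕ}
    (hℓ : ∀ x, ℓ ≤ (S x).card) (hA : A.Nonempty) (U : Finset X) :
    ∃ u ∈ A, ((U.filter fun x => u ∉ S x).card : ℝ) ≤ U.card * (1 - ℓ / A.card) := by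
  have hApos : (0 : ℝ) < A.card := by exact_mod_cast card_pos.mpr hA
  have hsum : ∑ u ∈ A, ((U.filter fun x => u ∉ S x).card : ℝ) ≤
      ∑ _u ∈ A, ((U.card : ℝ) * (1 - ℓ / A.card)) := by
    have h1 : ∀ u ∈ A, ((U.filter fun x => u ∉ S x).card : ℝ) =
        ∑ x ∈ U, (if u ∉ S x then (1 : ℝ) else 0) := by
      intro u _
      rw [sum_boole]
    rw [sum_congr rfl h1, sum_comm, sum_const, nsmul_eq_mul]
    have h2 : ∀ x ∈ U, ∑ u ∈ A, (if u ∉ S x then (1 : ℝ) else 0) ≤ (A.card : ℝ) - ℓ := by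
      intro x _
      have h3 : ∑ u ∈ A, (if u ∉ S x then (1 : ℝ) else 0) = ((A \ S x).card : ℝ) := by
        rw [sum_boole, sdiff_eq_filter]
      rw [h3, card_sdiff_of_subset (hS x), Nat.cast_sub (card_le_card (hS x))]
      have : (ℓ : ℝ) ≤ (S x).card := by exact_mod_cast hℓ x
      linarith
    calc ∑ x ∈ U, ∑ u ∈ A, (if u ∉ S x then (1 : ℝ) else 0)
        ≤ ∑ _x ∈ U, ((A.card : ℝ) - ℓ) := sum_le_sum h2
      _ = (A.card : ℝ) * ((U.card : ℝ) * (1 - ℓ / A.card)) := by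
          rw [sum_const, nsmul_eq_mul]
          field_simp
  obtain ⟨u, hu, hle⟩ := exists_le_of_sum_le hA hsum
  exact ⟨u, hu, hle⟩

/-- The greedy hitting set after `r` steps. -/
theorem exists_hit (A : Finset X) (S : X → Finset X) (hS : ∀ x, S x ⊆ A) {ℓ : ℕ}
    (hℓ : ∀ x, ℓ ≤ (S x).card) (hA : A.Nonempty) (hℓA : ℓ ≤ A.card) (r : ℕ) :
    ∃ R ⊆ A, R.card ≤ r ∧ ((univ.filter fun x => Disjoint (S x) R).card : ℝ) ≤
      Fintype.card X * (1 - ℓ / A.card) ^ r := by
  have hApos : (0 : ℝ) < A.card := by exact_mod_cast card_pos.mpr hA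
  have hq : 0 ≤ 1 - (ℓ : ℝ) / A.card := by
    rw [sub_nonneg, div_le_one hApos]
    exact_mod_cast hℓA
  induction r with
  | zero =>
    refine ⟨∅, empty_subset _, by simp, ?_⟩
    simp only [pow_zero, mul_one]
    exact_mod_cast card_filter_le _ _
  | succ r ih =>
    obtain ⟨R, hRA, hRc, hR⟩ := ih
    set U := univ.filter fun x => Disjoint (S x) R with hU
    obtain ⟨u, hu, hle⟩ := exists_hit_step A S hS hℓ hA U
    refine ⟨insert u R, insert_subset hu hRA, ?_, ?_⟩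
    · exact (card_insert_le _ _).trans (by omega)
    · have hsub : (univ.filter fun x => Disjoint (S x) (insert u R)) ⊆ U.filter fun x => u ∉ S x := by
        intro x hx
        have hd := (mem_filter.mp hx).2
        rw [disjoint_insert_right] at hd
        exact mem_filter.mpr ⟨mem_filter.mpr ⟨mem_univ _, hd.2⟩, hd.1⟩
      have hc : ((univ.filter fun x => Disjoint (S x) (insert u R)).card : ℝ) ≤
          ((U.filter fun x => u ∉ S x).card : ℝ) := by
        exact_mod_cast card_le_card hsub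
      calc _ ≤ ((U.filter fun x => u ∉ S x).card : ℝ) := hc
        _ ≤ U.card * (1 - ℓ / A.card) := hle
        _ ≤ (Fintype.card X * (1 - (ℓ : ℝ) / A.card) ^ r) * (1 - ℓ / A.card) :=
            mul_le_mul_of_nonneg_right hR hq
        _ = _ := by rw [pow_succ]; ring

/-- A hitting set of about half of the size. -/
theorem exists_hit_half (A : Finset X) (S : X → Finset X) (hS : ∀ x, S x ⊆ A) {ℓ : ℕ}
    (hℓ : ∀ x, ℓ ≤ (S x).card) (hA : A.Nonempty) (hℓA : ℓ ≤ A.card)
    (hn : (Fintype.card X : ℝ) * Real.exp (-(ℓ : ℝ) / 2) < 1) :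
    ∃ R ⊆ A, 2 * R.card ≤ A.card + 1 ∧ ∀ x, ¬ Disjoint (S x) R := by
  have hApos : (0 : ℝ) < A.card := by exact_mod_cast card_pos.mpr hA
  set r : ℕ := (A.card + 1) / 2 with hr
  obtain ⟨R, hRA, hRc, hR⟩ := exists_hit A S hS hℓ hA hℓA r
  refine ⟨R, hRA, ?_, ?_⟩
  · have : 2 * r ≤ A.card + 1 := Nat.mul_div_le _ _
    omega
  · have hq0 : 0 ≤ 1 - (ℓ : ℝ) / A.card := by
      rw [sub_nonneg, div_le_one hApos]
      exact_mod_cast hℓA
    have h1 : (1 - (ℓ : ℝ) / A.card) ^ r ≤ Real.exp (-(ℓ : ℝ) / 2) := by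
      have h2 : 1 - (ℓ : ℝ) / A.card ≤ Real.exp (-((ℓ : ℝ) / A.card)) := Real.one_sub_le_exp_neg _
      have h3 := pow_le_pow_left₀ hq0 h2 r
      rw [← Real.exp_nat_mul] at h3
      refine h3.trans (Real.exp_le_exp.mpr ?_)
      have hr2 : (A.card : ℝ) ≤ 2 * r := by
        have : A.card ≤ 2 * r := by omega
        exact_mod_cast this
      have hℓ0 : (0 : ℝ) ≤ ℓ := Nat.cast_nonneg _
      have : (r : ℝ) * ((ℓ : ℝ) / A.card) = (r * ℓ) / A.card := by ring
      rw [mul_neg, this]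
      have h5 : (ℓ : ℝ) / 2 ≤ (r * ℓ) / A.card := by
        rw [le_div_iff₀ hApos]
        nlinarith
      linarith
    have hlt : ((univ.filter fun x => Disjoint (S x) R).card : ℝ) < 1 := by
      calc _ ≤ (Fintype.card X : ℝ) * (1 - (ℓ : ℝ) / A.card) ^ r := hR
        _ ≤ (Fintype.card X : ℝ) * Real.exp (-(ℓ : ℝ) / 2) :=
            mul_le_mul_of_nonneg_left h1 (Nat.cast_nonneg _)
        _ < 1 := hn
    have hzero : (univ.filter fun x => Disjoint (S x) R).card = 0 := by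
      have : (univ.filter fun x => Disjoint (S x) R).card < 1 := by exact_mod_cast hlt
      omega
    intro x hx
    have : x ∈ univ.filter fun x => Disjoint (S x) R := mem_filter.mpr ⟨mem_univ _, hx⟩
    rw [card_eq_zero.mp hzero] at this
    simp at this

/-- **The bunches.** -/
theorem exists_bunch (d : X → X → ℝ) (hd0 : ∀ a b, 0 ≤ d a b) (hsymm : ∀ a b, d a b = d b a)
    (htri : ∀ a b c, d a c ≤ d a b + d b c) {ℓ : ℕ} (hℓ2 : 2 ≤ ℓ)
    (hn : (Fintype.card X : ℝ) * Real.exp (-(ℓ : ℝ) / 2) < 1) (T : ℕ) :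
    ∀ A : Finset X, A.Nonempty → A.card ≤ 2 ^ T + 1 →
    ∃ B : X → Finset X, (∀ x, (B x).card ≤ (T + 1) * ℓ) ∧ ∀ a b, ∀ w ∈ A, ∃ c, c ∈ B a ∧ c ∈ B b ∧
      d a c ≤ d a w + (T + 1) * d a b ∧ d b c ≤ d a w + (T + 1) * d a b := by
  -- the case of a small set
  have hbase : ∀ (T : ℕ) (A : Finset X), A.card ≤ ℓ →
      ∃ B : X → Finset X, (∀ x, (B x).card ≤ (T + 1) * ℓ) ∧ ∀ a b, ∀ w ∈ A, ∃ c, c ∈ B a ∧ c ∈ B b ∧
        d a c ≤ d a w + (T + 1) * d a b ∧ d b c ≤ d a w + (T + 1) * d a b := by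
    intro T A hA
    refine ⟨fun _ => A, fun _ => hA.trans (Nat.le_mul_of_pos_left _ (by omega)), ?_⟩
    intro a b w hw
    have hT : (1 : ℝ) ≤ (T : ℝ) + 1 := by
      have : (0 : ℝ) ≤ T := Nat.cast_nonneg _
      linarith
    have hab := hd0 a b
    refine ⟨w, hw, hw, ?_, ?_⟩
    · have : 0 ≤ ((T : ℝ) + 1) * d a b := by positivity
      linarith
    · have h1 := htri b a w
      rw [hsymm b a] at h1
      nlinarith
  induction T with
  | zero =>
    intro A _ hAc
    exact hbase 0 A (by simpa using hAc.trans (by omega))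
  | succ T ih =>
    intro A hA hAc
    by_cases hAℓ : A.card ≤ ℓ
    · exact hbase _ A hAℓ
    push Not at hAℓ
    have hAℓ' : ℓ ≤ A.card := hAℓ.le
    choose N hNA hNc hN using fun x => exists_closest (fun y => d x y) A ℓ hAℓ'
    obtain ⟨R, hRA, hRc, hR⟩ := exists_hit_half A N hNA (fun x => (hNc x).ge) hA hAℓ' hn
    have hRne : R.Nonempty := by
      obtain ⟨w, hw⟩ := hA
      obtain ⟨u, -, hu⟩ := not_disjoint_iff.mp (hR w)
      exact ⟨u, hu⟩
    have hRc' : R.card ≤ 2 ^ T + 1 := by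
      have : 2 ^ (T + 1) = 2 * 2 ^ T := by ring
      omega
    obtain ⟨B', hB'c, hB'⟩ := ih R hRne hRc'
    refine ⟨fun x => N x ∪ B' x, ?_, ?_⟩
    · intro x
      calc (N x ∪ B' x).card ≤ (N x).card + (B' x).card := card_union_le _ _
        _ ≤ ℓ + (T + 1) * ℓ := by rw [hNc x]; exact add_le_add_right (hB'c x) _
        _ = (T + 1 + 1) * ℓ := by ring
    · intro a b w hw
      have hab := hd0 a b
      have hT0 : (0 : ℝ) ≤ T := Nat.cast_nonneg _
      have hcast : (((T + 1 : ℕ) : ℝ) + 1) = (T : ℝ) + 2 := by push_cast; ring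
      rw [hcast]
      -- the closest point of `N a` to `a`
      have hNne : (N a).Nonempty := by
        rw [← card_pos, hNc]
        omega
      obtain ⟨w', hw', hmin⟩ := exists_min_image (N a) (fun y => d a y) hNne
      have hww : d a w' ≤ d a w := by
        by_cases hwN : w ∈ N a
        · exact hmin w hwN
        · exact hN a w' hw' w (mem_sdiff.mpr ⟨hw, hwN⟩)
      by_cases hcase : w' ∈ N b
      · refine ⟨w', mem_union_left _ hw', mem_union_left _ hcase, ?_, ?_⟩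
        · nlinarith
        · have h1 := htri b a w'
          rw [hsymm b a] at h1
          nlinarith
      · have hw'A : w' ∈ A := hNA a hw'
        obtain ⟨u, huN, huR⟩ := not_disjoint_iff.mp (hR b)
        have hbu : d b u ≤ d b w' := hN b u huN w' (mem_sdiff.mpr ⟨hw'A, hcase⟩)
        obtain ⟨c, hc1, hc2, hc3, hc4⟩ := hB' b a u huR
        have h1 := htri b a w'
        rw [hsymm b a] at h1 hc3 hc4
        refine ⟨c, mem_union_right _ hc2, mem_union_right _ hc1, ?_, ?_⟩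
        · nlinarith
        · nlinarith

/-- **The two-hop spanner.** -/
theorem exists_spanner (d : X → X → ℝ) (hd0 : ∀ a b, 0 ≤ d a b) (hself : ∀ a, d a a = 0)
    (hsymm : ∀ a b, d a b = d b a)
    (htri : ∀ a b c, d a c ≤ d a b + d b c) {ℓ : ℕ} (hℓ2 : 2 ≤ ℓ)
    (hn : (Fintype.card X : ℝ) * Real.exp (-(ℓ : ℝ) / 2) < 1) {T : ℕ}
    (hT : Fintype.card X ≤ 2 ^ T + 1) [Nonempty X] :
    ∃ B : X → Finset X, (∀ x, (B x).card ≤ (T + 1) * ℓ) ∧ ∀ a b, ∃ c, c ∈ B a ∧ c ∈ B b ∧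
      d a c ≤ (T + 1) * d a b ∧ d b c ≤ (T + 1) * d a b := by
  obtain ⟨B, hBc, hB⟩ := exists_bunch d hd0 hsymm htri hℓ2 hn T univ univ_nonempty
    (by rwa [card_univ])
  refine ⟨B, hBc, fun a b => ?_⟩
  obtain ⟨c, h1, h2, h3, h4⟩ := hB a b a (mem_univ _)
  rw [hself, zero_add] at h3 h4
  exact ⟨c, h1, h2, h3, h4⟩

end Vale.Agent.P249
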