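import Vale.Agent.P249.Defs
import Vale.Agent.P249.Sampling
import Vale.Agent.P249.Spanner

/-!
Dimension reduction for finite subsets of `ℓ_p` by sampling coordinates with probabilities given
by the sum of the normalized `p`-th powers of differences along the edges of a two-hop spanner.
-/

open Finset

namespace Vale.Agent.P249

theorem abs_rpow_le {p : ℝ} (hp : 1 ≤ p) (u v w : ℝ) :
    |u - v| ^ p ≤ 2 ^ (p - 1) * (|u - w| ^ p + |v - w| ^ p) := by
  have hp0 : 0 ≤ p := by linarith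
  have h1 : |u - v| ≤ |u - w| + |v - w| := by
    have : u - v = (u - w) - (v - w) := by ring
    rw [this]
    exact abs_sub _ _
  have h3 : (|u - w| + |v - w|) ^ p ≤ 2 ^ (p - 1) * (|u - w| ^ p + |v - w| ^ p) := by
    lift |u - w| to NNReal using abs_nonneg _ with A hA
    lift |v - w| to NNReal using abs_nonneg _ with B hB
    have h2 := NNReal.rpow_add_le_mul_rpow_add_rpow A B hp
    exact_mod_cast h2
  exact (Real.rpow_le_rpow (abs_nonneg _) h1 hp0).trans h3

section

variable {n m : ℕ} (p : ℝ) (x : Fin n → Fin m → ℝ)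

/-- The `p`-th power of the distance between two points. -/
noncomputable def rho (a b : Fin n) : ℝ := ∑ k, |x a k - x b k| ^ p

/-- The normalized `p`-th powers of a difference. -/
noncomputable def gfun (a b : Fin n) (t : Fin m) : ℝ := |x a t - x b t| ^ p / rho p x a b

theorem rho_nonneg (a b : Fin n) (hp : 0 ≤ p) : 0 ≤ rho p x a b :=
  sum_nonneg fun _ _ => Real.rpow_nonneg (abs_nonneg _) _

theorem gfun_nonneg (a b : Fin n) (t : Fin m) (hp : 0 ≤ p) : 0 ≤ gfun p x a b t :=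
  div_nonneg (Real.rpow_nonneg (abs_nonneg _) _) (rho_nonneg p x a b hp)

theorem rho_pos {a b : Fin n} (hp : 0 < p) (hx : Function.Injective x) (hab : a ≠ b) :
    0 < rho p x a b := by
  have hne : x a ≠ x b := fun h => hab (hx h)
  obtain ⟨k, hk⟩ := Function.ne_iff.mp hne
  have hk' : 0 < |x a k - x b k| ^ p :=
    Real.rpow_pos_of_pos (abs_pos.mpr (sub_ne_zero.mpr hk)) _
  exact lt_of_lt_of_le hk' (single_le_sum (f := fun k => |x a k - x b k| ^ p)
    (fun _ _ => Real.rpow_nonneg (abs_nonneg _) _) (mem_univ k))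

theorem rho_self (a : Fin n) (hp : 0 < p) : rho p x a a = 0 := by
  simp [rho, Real.zero_rpow hp.ne']

theorem gfun_self (a : Fin n) (t : Fin m) (hp : 0 < p) : gfun p x a a t = 0 := by
  simp [gfun, rho_self p x a hp]

theorem sum_gfun {a b : Fin n} (hp : 0 < p) (hx : Function.Injective x) (hab : a ≠ b) :
    ∑ t, gfun p x a b t = 1 := by
  have h := rho_pos p x hp hx hab
  simp only [gfun]
  rw [← sum_div]
  exact div_self h.ne'

/-- The identity between a difference and its normalized version. -/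
theorem rpow_eq_rho_mul_gfun (a b : Fin n) (t : Fin m) (hp : 0 < p) (hx : Function.Injective x) :
    |x a t - x b t| ^ p = rho p x a b * gfun p x a b t := by
  by_cases hab : a = b
  · subst hab
    simp [gfun_self p x a t hp, Real.zero_rpow hp.ne']
  · have h := rho_pos p x hp hx hab
    simp only [gfun]
    field_simp

theorem lpDist_eq (a b : Fin n) : lpDist p (x a) (x b) = rho p x a b ^ (1 / p) := rfl

theorem rho_eq_lpDist_rpow (a b : Fin n) (hp : 1 ≤ p) :
    rho p x a b = lpDist p (x a) (x b) ^ p := by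
  have hp' : p ≠ 0 := by linarith
  rw [lpDist_eq, one_div, Real.rpow_inv_rpow (rho_nonneg p x a b (by linarith)) hp']

theorem lpDist_nonneg (a b : Fin n) (hp : 1 ≤ p) : 0 ≤ lpDist p (x a) (x b) :=
  Real.rpow_nonneg (rho_nonneg p x a b (by linarith)) _

theorem lpDist_self (a : Fin n) (hp : 1 ≤ p) : lpDist p (x a) (x a) = 0 := by
  have hp' : 0 < p := by linarith
  rw [lpDist_eq, rho_self p x a hp', Real.zero_rpow (by positivity)]

theorem lpDist_comm (a b : Fin n) : lpDist p (x a) (x b) = lpDist p (x b) (x a) := by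
  simp only [lpDist, abs_sub_comm]

theorem lpDist_triangle (a b c : Fin n) (hp : 1 ≤ p) :
    lpDist p (x a) (x c) ≤ lpDist p (x a) (x b) + lpDist p (x b) (x c) := by
  have h := Real.Lp_add_le (Finset.univ) (fun k => x a k - x b k) (fun k => x b k - x c k) hp
  simp only [sub_add_sub_cancel] at h
  exact h

/-- The total weight along a family of bunches. -/
noncomputable def bigG (B : Fin n → Finset (Fin n)) (t : Fin m) : ℝ :=
  ∑ a, ∑ c ∈ B a, gfun p x a c t

theorem bigG_nonneg (B : Fin n → Finset (Fin n)) (t : Fin m) (hp : 0 ≤ p) : 0 ≤ bigG p x B t :=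
  sum_nonneg fun a _ => sum_nonneg fun c _ => gfun_nonneg p x a c t hp

/-- Domination of all normalized differences by the weight along the spanner. -/
theorem gfun_le_bigG {B : Fin n → Finset (Fin n)} {κ : ℝ} (hκ : 0 ≤ κ) (hp : 1 ≤ p)
    (hx : Function.Injective x)
    (hB : ∀ a b, ∃ c, c ∈ B a ∧ c ∈ B b ∧ lpDist p (x a) (x c) ≤ κ * lpDist p (x a) (x b) ∧
      lpDist p (x b) (x c) ≤ κ * lpDist p (x a) (x b))
    {a b : Fin n} (hab : a ≠ b) (t : Fin m) :
    gfun p x a b t ≤ 2 ^ (p - 1) * κ ^ p * bigG p x B t := by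
  have hp0 : 0 < p := by linarith
  obtain ⟨c, hca, hcb, h1, h2⟩ := hB a b
  have hrpos := rho_pos p x hp0 hx hab
  have hscale : ∀ q : Fin n, lpDist p (x q) (x c) ≤ κ * lpDist p (x a) (x b) →
      rho p x q c ≤ κ ^ p * rho p x a b := by
    intro q hq
    rw [rho_eq_lpDist_rpow p x q c hp, rho_eq_lpDist_rpow p x a b hp,
      ← Real.mul_rpow hκ (lpDist_nonneg p x a b hp)]
    exact Real.rpow_le_rpow (lpDist_nonneg p x q c hp) hq (by linarith)
  have hg : ∀ q, 0 ≤ gfun p x q c t := fun q => gfun_nonneg p x q c t hp0.le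
  have hmain : |x a t - x b t| ^ p ≤
      2 ^ (p - 1) * (κ ^ p * rho p x a b * (gfun p x a c t + gfun p x b c t)) := by
    have h3 := abs_rpow_le hp (x a t) (x b t) (x c t)
    rw [rpow_eq_rho_mul_gfun p x a c t hp0 hx, rpow_eq_rho_mul_gfun p x b c t hp0 hx] at h3
    refine h3.trans ?_
    apply mul_le_mul_of_nonneg_left _ (by positivity)
    have h4 := mul_le_mul_of_nonneg_right (hscale a h1) (hg a)
    have h5 := mul_le_mul_of_nonneg_right (hscale b h2) (hg b)
    nlinarith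
  have hsum : gfun p x a c t + gfun p x b c t ≤ bigG p x B t := by
    have hnn : ∀ q ∈ (univ : Finset (Fin n)), 0 ≤ ∑ c' ∈ B q, gfun p x q c' t := fun q _ =>
      sum_nonneg fun c' _ => gfun_nonneg p x q c' t hp0.le
    have h6 := Finset.add_le_sum hnn (mem_univ a) (mem_univ b) hab
    have h7 : gfun p x a c t ≤ ∑ c' ∈ B a, gfun p x a c' t :=
      single_le_sum (f := fun c' => gfun p x a c' t)
        (fun c' _ => gfun_nonneg p x a c' t hp0.le) hca
    have h8 : gfun p x b c t ≤ ∑ c' ∈ B b, gfun p x b c' t :=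
      single_le_sum (f := fun c' => gfun p x b c' t)
        (fun c' _ => gfun_nonneg p x b c' t hp0.le) hcb
    simp only [bigG]
    linarith
  have h9 : gfun p x a b t ≤ 2 ^ (p - 1) * (κ ^ p * (gfun p x a c t + gfun p x b c t)) := by
    simp only [gfun] at hmain ⊢
    rw [div_le_iff₀ hrpos]
    calc _ ≤ _ := hmain
      _ = _ := by ring
  have hκp : 0 ≤ κ ^ p := Real.rpow_nonneg hκ _
  have h2p : (0 : ℝ) ≤ 2 ^ (p - 1) := by positivity
  calc gfun p x a b t ≤ 2 ^ (p - 1) * (κ ^ p * (gfun p x a c t + gfun p x b c t)) := h9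
    _ ≤ 2 ^ (p - 1) * (κ ^ p * bigG p x B t) :=
        mul_le_mul_of_nonneg_left (mul_le_mul_of_nonneg_left hsum hκp) h2p
    _ = _ := by ring

/-- The total mass of the weight along the spanner. -/
theorem sum_bigG_le {B : Fin n → Finset (Fin n)} {Q : ℝ} (hp : 0 < p) (hx : Function.Injective x)
    (hQ : ∀ a, ((B a).card : ℝ) ≤ Q) : ∑ t, bigG p x B t ≤ n * Q := by
  simp only [bigG]
  rw [sum_comm]
  have hone : ∀ a, ∑ t, ∑ c ∈ B a, gfun p x a c t ≤ Q := by
    intro a
    rw [sum_comm]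
    have : ∀ c ∈ B a, ∑ t, gfun p x a c t ≤ 1 := by
      intro c _
      by_cases h : a = c
      · subst h
        simp [gfun_self p x a _ hp]
      · rw [sum_gfun p x hp hx h]
    calc _ ≤ ∑ _c ∈ B a, (1 : ℝ) := sum_le_sum this
      _ = ((B a).card : ℝ) := by simp
      _ ≤ Q := hQ a
  calc _ ≤ ∑ _a : Fin n, Q := sum_le_sum fun a _ => hone a
    _ = n * Q := by simp

theorem one_le_sum_bigG {B : Fin n → Finset (Fin n)} (hp : 0 < p) (hx : Function.Injective x)
    {a b : Fin n} (hab : a ≠ b) (hB : ∃ c, c ∈ B a ∧ c ∈ B b) :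
    1 ≤ ∑ t, bigG p x B t := by
  simp only [bigG]
  rw [sum_comm]
  have hnn : ∀ q ∈ (univ : Finset (Fin n)), 0 ≤ ∑ t, ∑ c ∈ B q, gfun p x q c t := fun q _ =>
    sum_nonneg fun t _ => sum_nonneg fun c' _ => gfun_nonneg p x q c' t hp.le
  have hpart : ∀ q c, c ∈ B q → q ≠ c → 1 ≤ ∑ t, ∑ c ∈ B q, gfun p x q c t := by
    intro q c hc hqc
    rw [sum_comm]
    rw [← sum_gfun p x hp hx hqc]
    exact single_le_sum (f := fun c' => ∑ t, gfun p x q c' t)
      (fun c' _ => sum_nonneg fun t _ => gfun_nonneg p x q c' t hp.le) hc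
  obtain ⟨c, hca, hcb⟩ := hB
  by_cases h : a = c
  · have hbc : b ≠ c := fun hh => hab (h.trans hh.symm)
    exact (hpart b c hcb hbc).trans (single_le_sum hnn (mem_univ b))
  · exact (hpart a c hca h).trans (single_le_sum hnn (mem_univ a))

end

/-- The core of the dimension reduction: the sampled coordinates. -/
theorem core {p ε : ℝ} (hp : 1 ≤ p) (hε0 : 0 < ε) (hε1 : ε ≤ 1) {n m : ℕ} (hn : 2 ≤ n)
    (x : Fin n → Fin m → ℝ) (hx : Function.Injective x) {ℓ T d : ℕ} (hℓ2 : 2 ≤ ℓ)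
    (hnℓ : (n : ℝ) * Real.exp (-(ℓ : ℝ) / 2) < 1) (hT : n ≤ 2 ^ T + 1) (hd : 0 < d)
    (hlarge : 2 * (n : ℝ) ^ 2 * Real.exp (-((d : ℝ) * ε ^ 2 /
      (4 * (2 ^ (p - 1) * ((T : ℝ) + 1) ^ p * (n * (((T : ℝ) + 1) * ℓ)))))) < 1) :
    ∃ f : Fin n → Fin d → ℝ, ∀ a b, a ≠ b →
      (1 - ε) * rho p x a b ≤ ∑ i, |f a i - f b i| ^ p ∧
      ∑ i, |f a i - f b i| ^ p ≤ (1 + ε) * rho p x a b := by
  classical
  have hp0 : 0 < p := by linarith
  have hne : Nonempty (Fin n) := ⟨⟨0, by omega⟩⟩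
  obtain ⟨B, hBc, hB⟩ := exists_spanner (X := Fin n) (fun a b => lpDist p (x a) (x b))
    (fun a b => lpDist_nonneg p x a b hp) (fun a => lpDist_self p x a hp)
    (fun a b => lpDist_comm p x a b) (fun a b c => lpDist_triangle p x a b c hp) hℓ2
    (by simpa using hnℓ) (T := T) (by simpa using hT)
  set κ : ℝ := (T : ℝ) + 1 with hκdef
  have hκ : 0 < κ := by rw [hκdef]; positivity
  have hB' : ∀ a b, ∃ c, c ∈ B a ∧ c ∈ B b ∧ lpDist p (x a) (x c) ≤ κ * lpDist p (x a) (x b) ∧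
      lpDist p (x b) (x c) ≤ κ * lpDist p (x a) (x b) := by
    intro a b
    obtain ⟨c, h1, h2, h3, h4⟩ := hB a b
    have hcast : (((T + 1 : ℕ) : ℝ)) = κ := by rw [hκdef]; push_cast; ring
    exact ⟨c, h1, h2, h3, h4⟩
  set Q : ℝ := κ * ℓ with hQ
  have hBQ : ∀ a, ((B a).card : ℝ) ≤ Q := by
    intro a
    have : (B a).card ≤ (T + 1) * ℓ := hBc a
    have h2 : ((B a).card : ℝ) ≤ (((T + 1) * ℓ : ℕ) : ℝ) := by exact_mod_cast this
    rw [hQ, hκdef]
    push_cast at h2
    exact h2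
  set a0 : Fin n := ⟨0, by omega⟩ with ha0
  set b0 : Fin n := ⟨1, by omega⟩ with hb0
  have hab0 : a0 ≠ b0 := by simp [ha0, hb0, Fin.ext_iff]
  set W : ℝ := ∑ t, bigG p x B t with hW
  have hW1 : 1 ≤ W := by
    obtain ⟨c, h1, h2, _⟩ := hB' a0 b0
    exact one_le_sum_bigG p x hp0 hx hab0 ⟨c, h1, h2⟩
  have hWpos : 0 < W := by linarith
  have hWle : W ≤ n * Q := sum_bigG_le p x hp0 hx hBQ
  set ν : Fin m → ℝ := fun t => bigG p x B t / W with hν
  have hν0 : ∀ t, 0 ≤ ν t := fun t => div_nonneg (bigG_nonneg p x B t hp0.le) hWpos.le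
  have hν1 : ∑ t, ν t = 1 := by
    simp only [hν]
    rw [← sum_div]
    exact div_self hWpos.ne'
  set M : ℝ := 2 ^ (p - 1) * κ ^ p * W with hM
  have hκp : 0 < κ ^ p := Real.rpow_pos_of_pos hκ _
  have h2p : (0 : ℝ) < 2 ^ (p - 1) := by positivity
  have hMpos : 0 < M := by rw [hM]; positivity
  -- the index set of the pairs
  let J := {q : Fin n × Fin n // q.1 ≠ q.2}
  have hJcard : (Fintype.card J : ℝ) ≤ (n : ℝ) ^ 2 := by
    have h1 : Fintype.card J ≤ Fintype.card (Fin n × Fin n) := Fintype.card_subtype_le _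
    have h2 : Fintype.card (Fin n × Fin n) = n ^ 2 := by simp [sq]
    rw [h2] at h1
    exact_mod_cast h1
  have hMle : M ≤ 2 ^ (p - 1) * κ ^ p * (n * Q) :=
    mul_le_mul_of_nonneg_left hWle (by positivity)
  have hlarge' : 2 * (Fintype.card J : ℝ) * Real.exp (-((d : ℝ) * ε ^ 2 / (4 * M))) < 1 := by
    refine lt_of_le_of_lt ?_ hlarge
    have hd0 : (0 : ℝ) ≤ (d : ℝ) * ε ^ 2 := by positivity
    have hexp : Real.exp (-((d : ℝ) * ε ^ 2 / (4 * M))) ≤
        Real.exp (-((d : ℝ) * ε ^ 2 / (4 * (2 ^ (p - 1) * κ ^ p * (n * Q))))) := by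
      apply Real.exp_le_exp.mpr
      apply neg_le_neg
      exact div_le_div_of_nonneg_left hd0 (by positivity) (by linarith)
    calc 2 * (Fintype.card J : ℝ) * Real.exp (-((d : ℝ) * ε ^ 2 / (4 * M)))
        ≤ 2 * (n : ℝ) ^ 2 * Real.exp (-((d : ℝ) * ε ^ 2 / (4 * (2 ^ (p - 1) * κ ^ p * (n * Q))))) := by
          apply mul_le_mul _ hexp (Real.exp_pos _).le (by positivity)
          linarith
      _ = _ := rfl
  obtain ⟨τ, hτpos, hτ⟩ := exists_sample ν hν0 hν1
    (fun (j : J) t => gfun p x j.1.1 j.1.2 t) (fun j t => gfun_nonneg p x _ _ t hp0.le)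
    (fun j => sum_gfun p x hp0 hx j.2) hMpos
    (by
      intro j t
      have h1 := gfun_le_bigG p x hκ.le hp hx hB' j.2 t
      have h2 : M * ν t = 2 ^ (p - 1) * κ ^ p * bigG p x B t := by
        simp only [hν, hM]
        field_simp
      rw [h2]
      exact h1)
    hε0 hε1 hd hlarge'
  -- the scaled coordinates
  have hdpos : (0 : ℝ) < d := by exact_mod_cast hd
  set c : Fin d → ℝ := fun i => (1 / ((d : ℝ) * ν (τ i))) ^ (1 / p) with hc
  have hc0 : ∀ i, 0 < (d : ℝ) * ν (τ i) := fun i => mul_pos hdpos (hτpos i)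
  have hcp : ∀ i, c i ^ p = 1 / ((d : ℝ) * ν (τ i)) := by
    intro i
    simp only [hc]
    rw [one_div p, Real.rpow_inv_rpow (by have := hc0 i; positivity) hp0.ne']
  refine ⟨fun a i => c i * x a (τ i), ?_⟩
  intro a b hab
  have hcnn : ∀ i, 0 ≤ c i := fun i => Real.rpow_nonneg (by have := hc0 i; positivity) _
  have hsum : ∑ i, |c i * x a (τ i) - c i * x b (τ i)| ^ p =
      rho p x a b * ((1 / (d : ℝ)) * ∑ i, gfun p x a b (τ i) / ν (τ i)) := by
    rw [mul_sum, mul_sum]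
    apply sum_congr rfl
    intro i _
    have h1 : c i * x a (τ i) - c i * x b (τ i) = c i * (x a (τ i) - x b (τ i)) := by ring
    rw [h1, abs_mul, abs_of_nonneg (hcnn i), Real.mul_rpow (hcnn i) (abs_nonneg _), hcp i,
      rpow_eq_rho_mul_gfun p x a b (τ i) hp0 hx]
    have := hτpos i
    field_simp
  have hj : 1 - ε ≤ (1 / (d : ℝ)) * ∑ i, gfun p x a b (τ i) / ν (τ i) ∧
      (1 / (d : ℝ)) * ∑ i, gfun p x a b (τ i) / ν (τ i) ≤ 1 + ε := hτ ⟨(a, b), hab⟩
  have hrnn := rho_nonneg p x a b hp0.le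
  rw [hsum]
  constructor
  · calc (1 - ε) * rho p x a b = rho p x a b * (1 - ε) := by ring
      _ ≤ _ := mul_le_mul_of_nonneg_left hj.1 hrnn
  · calc _ ≤ rho p x a b * (1 + ε) := mul_le_mul_of_nonneg_left hj.2 hrnn
      _ = _ := by ring

end Vale.Agent.P249
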