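import Mathlib

/-!
The `ℓ_p` distance on finite-dimensional coordinate spaces.
-/

namespace Vale.Agent.P249

/-- The distance of `ℓ_p^d` for a real exponent `p`, that is `(∑ k, |u k - v k| ^ p) ^ (1 / p)`. -/
noncomputable def lpDist (p : ℝ) {d : ℕ} (u v : Fin d → ℝ) : ℝ :=
  (∑ k, |u k - v k| ^ p) ^ (1 / p)

end Vale.Agent.P249
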