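import Vale.Agent.P249.Core

/-!
The upper bound `d_p(n, D) ≤ C n (log n) ^ (p + 3)`.
-/

open Finset

namespace Vale.Agent.P249

/-- **Main theorem.** For every `p ≥ 1` and `D > 1`, every `n`-point subset of every `ℓ_p^m` maps
into `ℓ_p^d` with distortion at most `D`, for some `d ≤ C n (log n) ^ (p + 3)`. -/
theorem main_bound {p D : ℝ} (hp : 1 ≤ p) (hD : 1 < D) :
    ∃ C : ℝ, 0 < C ∧ ∀ n : ℕ, 2 ≤ n → ∀ (m : ℕ) (x : Fin n → Fin m → ℝ), Function.Injective x →
      ∃ (d : ℕ) (f : Fin n → Fin d → ℝ) (s : ℝ), (d : ℝ) ≤ C * n * Real.log n ^ (p + 3) ∧ 0 < s ∧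
        ∀ a b, s * lpDist p (x a) (x b) ≤ lpDist p (f a) (f b) ∧
          lpDist p (f a) (f b) ≤ D * s * lpDist p (x a) (x b) := by
  have hp0 : 0 < p := by linarith
  set ε : ℝ := (D - 1) / (D + 1) with hε
  have hD1 : 0 < D + 1 := by linarith
  have hε0 : 0 < ε := div_pos (by linarith) hD1
  have hε1 : ε < 1 := (div_lt_one hD1).mpr (by linarith)
  have hlog2 : (0.69 : ℝ) < Real.log 2 := by
    have := Real.log_two_gt_d9
    linarith
  set A : ℝ := 420 * 2 ^ (p - 1) * 5 ^ p / ε ^ 2 with hA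
  have hApos : 0 < A := by rw [hA]; positivity
  set Bc : ℝ := (Real.log 2 ^ (p + 3))⁻¹ with hBc
  have hlog2pos : 0 < Real.log 2 := by linarith
  have hBcpos : 0 < Bc := by
    rw [hBc]
    exact inv_pos.mpr (Real.rpow_pos_of_pos hlog2pos _)
  refine ⟨A + Bc, add_pos hApos hBcpos, ?_⟩
  intro n hn m x hx
  have hnR : (2 : ℝ) ≤ n := by exact_mod_cast hn
  have hnpos : (0 : ℝ) < n := by linarith
  set L : ℝ := Real.log n with hL
  have hLge : Real.log 2 ≤ L := Real.log_le_log (by norm_num) hnR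
  have hLpos : 0 < L := by linarith
  -- the parameters of the spanner
  set ℓ : ℕ := ⌈2 * L⌉₊ + 2 with hℓ
  have hℓ2 : 2 ≤ ℓ := by rw [hℓ]; omega
  have hℓlow : 2 * L + 2 ≤ (ℓ : ℝ) := by
    rw [hℓ]
    push_cast
    have := Nat.le_ceil (2 * L)
    linarith
  have hℓup : (ℓ : ℝ) ≤ 7 * L := by
    rw [hℓ]
    push_cast
    have := Nat.ceil_lt_add_one (show 0 ≤ 2 * L by positivity)
    nlinarith
  have hnℓ : (n : ℝ) * Real.exp (-(ℓ : ℝ) / 2) < 1 := by
    have h1 : -(ℓ : ℝ) / 2 ≤ -L - 1 := by linarith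
    have h2 : Real.exp (-(ℓ : ℝ) / 2) ≤ Real.exp (-L - 1) := Real.exp_le_exp.mpr h1
    have h3 : (n : ℝ) * Real.exp (-L - 1) = Real.exp (-1) := by
      rw [sub_eq_add_neg, Real.exp_add, Real.exp_neg L, hL, Real.exp_log hnpos]
      field_simp
    have h4 : Real.exp (-1) < 1 := by
      rw [Real.exp_lt_one_iff]
      norm_num
    calc (n : ℝ) * Real.exp (-(ℓ : ℝ) / 2) ≤ (n : ℝ) * Real.exp (-L - 1) :=
          mul_le_mul_of_nonneg_left h2 hnpos.le
      _ = Real.exp (-1) := h3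
      _ < 1 := h4
  set T : ℕ := Nat.clog 2 n with hT
  have hTn : n ≤ 2 ^ T + 1 := by
    have h := Nat.le_pow_clog (show 1 < 2 by norm_num) n
    rw [← hT] at h
    omega
  have hTup : (T : ℝ) + 1 ≤ 5 * L := by
    have h1 : 2 ^ (T.pred) < n := Nat.pow_pred_clog_lt_self (by norm_num) (by omega)
    have h2 : ((2 : ℝ) ^ T.pred) < n := by exact_mod_cast h1
    have h3 : (T.pred : ℝ) * Real.log 2 < L := by
      have := Real.log_lt_log (by positivity) h2
      rwa [Real.log_pow] at this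
    have h4 : (T : ℝ) ≤ (T.pred : ℝ) + 1 := by
      have : T ≤ T.pred + 1 := by
        rw [Nat.pred_eq_sub_one]
        omega
      exact_mod_cast this
    have hpred : (0 : ℝ) ≤ (T.pred : ℝ) := Nat.cast_nonneg _
    have h5 : (T.pred : ℝ) * 0.69 ≤ L := by nlinarith
    nlinarith
  have hκ : (0 : ℝ) < (T : ℝ) + 1 := by positivity
  have hℓpos : (0 : ℝ) < ℓ := by
    have : 0 < ℓ := by omega
    exact_mod_cast this
  -- the dimension
  set M0 : ℝ := 2 ^ (p - 1) * ((T : ℝ) + 1) ^ p * (n * (((T : ℝ) + 1) * ℓ)) with hM0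
  have hM0pos : 0 < M0 := by rw [hM0]; positivity
  set Λ : ℝ := Real.log (2 * (n : ℝ) ^ 2) with hΛ
  have hΛe : Λ = Real.log 2 + 2 * L := by
    rw [hΛ, Real.log_mul (by norm_num) (by positivity), Real.log_pow]
    push_cast
    ring
  have hΛup : Λ ≤ 3 * L := by rw [hΛe]; linarith
  have hΛpos : 0 < Λ := by rw [hΛe]; linarith
  set d : ℕ := ⌈4 * M0 * Λ / ε ^ 2⌉₊ + 1 with hd
  have hdpos : 0 < d := by rw [hd]; omega
  have hdlow : 4 * M0 * Λ / ε ^ 2 < (d : ℝ) := by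
    rw [hd]
    push_cast
    have := Nat.le_ceil (4 * M0 * Λ / ε ^ 2)
    linarith
  have hdup : (d : ℝ) ≤ 4 * M0 * Λ / ε ^ 2 + 2 := by
    rw [hd]
    push_cast
    have := Nat.ceil_lt_add_one (show 0 ≤ 4 * M0 * Λ / ε ^ 2 by positivity)
    linarith
  have hlarge : 2 * (n : ℝ) ^ 2 * Real.exp (-((d : ℝ) * ε ^ 2 / (4 * M0))) < 1 := by
    have h1 : Λ < (d : ℝ) * ε ^ 2 / (4 * M0) := by
      rw [lt_div_iff₀ (by positivity)]
      rw [div_lt_iff₀ (by positivity)] at hdlow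
      linarith
    have h2 : Real.exp (-((d : ℝ) * ε ^ 2 / (4 * M0))) < Real.exp (-Λ) :=
      Real.exp_lt_exp.mpr (by linarith)
    have h3 : 2 * (n : ℝ) ^ 2 * Real.exp (-Λ) = 1 := by
      rw [Real.exp_neg, hΛ, Real.exp_log (by positivity)]
      field_simp
    calc _ < 2 * (n : ℝ) ^ 2 * Real.exp (-Λ) :=
          mul_lt_mul_of_pos_left h2 (by positivity)
      _ = 1 := h3
  obtain ⟨f, hf⟩ := core hp hε0 hε1.le hn x hx hℓ2 hnℓ hTn hdpos hlarge
  have hLp : (0 : ℝ) < L ^ (p + 3) := Real.rpow_pos_of_pos hLpos _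
  have hLp3 : L ^ (p + 3) = L ^ p * L ^ 3 := by
    rw [Real.rpow_add hLpos]
    norm_cast
  -- the bound for the dimension
  have hdbound : (d : ℝ) ≤ (A + Bc) * n * L ^ (p + 3) := by
    have h1 : M0 ≤ 2 ^ (p - 1) * (5 * L) ^ p * (n * (5 * L * (7 * L))) := by
      rw [hM0]
      have h2 : ((T : ℝ) + 1) ^ p ≤ (5 * L) ^ p := Real.rpow_le_rpow hκ.le hTup hp0.le
      have h3 : ((T : ℝ) + 1) * ℓ ≤ 5 * L * (7 * L) :=
        mul_le_mul hTup hℓup hℓpos.le (by positivity)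
      have h4 : (n : ℝ) * (((T : ℝ) + 1) * ℓ) ≤ n * (5 * L * (7 * L)) :=
        mul_le_mul_of_nonneg_left h3 hnpos.le
      apply mul_le_mul _ h4 (by positivity) (by positivity)
      exact mul_le_mul_of_nonneg_left h2 (by positivity)
    have h5 : (5 * L) ^ p = 5 ^ p * L ^ p := Real.mul_rpow (by norm_num) hLpos.le
    have h6 : 4 * M0 * Λ / ε ^ 2 ≤ A * n * L ^ (p + 3) := by
      rw [div_le_iff₀ (by positivity)]
      have h7 : 4 * M0 * Λ ≤ 4 * (2 ^ (p - 1) * (5 * L) ^ p * (n * (5 * L * (7 * L)))) * (3 * L) :=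
        mul_le_mul (by linarith) hΛup hΛpos.le (by positivity)
      have h8 : A * n * L ^ (p + 3) * ε ^ 2 =
          4 * (2 ^ (p - 1) * (5 * L) ^ p * (n * (5 * L * (7 * L)))) * (3 * L) := by
        rw [hA, hLp3, h5]
        field_simp
        ring
      rw [h8]
      exact h7
    have h9 : 2 ≤ Bc * n * L ^ (p + 3) := by
      have h10 : Real.log 2 ^ (p + 3) ≤ L ^ (p + 3) :=
        Real.rpow_le_rpow hlog2pos.le hLge (by linarith)
      have h11 : 0 < Real.log 2 ^ (p + 3) := Real.rpow_pos_of_pos hlog2pos _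
      have h12 : 1 ≤ Bc * L ^ (p + 3) := by
        rw [hBc, inv_mul_eq_div, le_div_iff₀ h11]
        linarith
      calc (2 : ℝ) = 2 * 1 := by ring
        _ ≤ n * (Bc * L ^ (p + 3)) := mul_le_mul hnR h12 (by norm_num) hnpos.le
        _ = _ := by ring
    calc (d : ℝ) ≤ 4 * M0 * Λ / ε ^ 2 + 2 := hdup
      _ ≤ A * n * L ^ (p + 3) + Bc * n * L ^ (p + 3) := add_le_add h6 h9
      _ = _ := by ring
  have h1ε : 0 < 1 - ε := by linarith
  refine ⟨d, f, (1 - ε) ^ (1 / p), hdbound, Real.rpow_pos_of_pos h1ε _, ?_⟩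
  intro a b
  have hpi : 0 ≤ 1 / p := by positivity
  by_cases hab : a = b
  · subst hab
    rw [lpDist_self p x a hp, lpDist_self p f a hp]
    simp
  obtain ⟨h1, h2⟩ := hf a b hab
  have hr := rho_nonneg p x a b hp0.le
  have hsum0 : 0 ≤ ∑ i, |f a i - f b i| ^ p :=
    sum_nonneg fun _ _ => Real.rpow_nonneg (abs_nonneg _) _
  have hlo : (1 - ε) ^ (1 / p) * lpDist p (x a) (x b) ≤ lpDist p (f a) (f b) := by
    rw [lpDist_eq p x a b, lpDist_eq p f a b, ← Real.mul_rpow h1ε.le hr]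
    exact Real.rpow_le_rpow (mul_nonneg h1ε.le hr) h1 hpi
  have hup : lpDist p (f a) (f b) ≤ (1 + ε) ^ (1 / p) * lpDist p (x a) (x b) := by
    rw [lpDist_eq p x a b, lpDist_eq p f a b, ← Real.mul_rpow (by linarith) hr]
    exact Real.rpow_le_rpow hsum0 h2 hpi
  have hratio : (1 + ε) ^ (1 / p) ≤ D * (1 - ε) ^ (1 / p) := by
    have h3 : 1 + ε = D * (1 - ε) := by
      rw [hε]
      field_simp
      ring
    rw [h3, Real.mul_rpow (by linarith) h1ε.le]
    apply mul_le_mul_of_nonneg_right _ (Real.rpow_nonneg h1ε.le _)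
    have h4 : 1 / p ≤ 1 := by
      rw [div_le_one hp0]
      exact hp
    calc D ^ (1 / p) ≤ D ^ (1 : ℝ) := Real.rpow_le_rpow_of_exponent_le hD.le h4
      _ = D := Real.rpow_one D
  refine ⟨hlo, hup.trans ?_⟩
  exact mul_le_mul_of_nonneg_right hratio (lpDist_nonneg p x a b hp)

end Vale.Agent.P249
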